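import Mathlib

/-! Change of variables for an injective shadowing map: comparison of weighted measures. -/

open MeasureTheory Set
open scoped ENNReal

namespace Vale.Agent.P109.H633

/-- orbit of `z` under the time dependent maps `f 0, f 1, …` -/
def orb {E : Type*} (f : ℕ → E → E) (z : E) : ℕ → E
  | 0 => z
  | t + 1 => f t (orb f z t)

@[simp] theorem orb_zero {E : Type*} (f : ℕ → E → E) (z : E) : orb f z 0 = z := rfl

theorem orb_succ {E : Type*} (f : ℕ → E → E) (z : E) (t : ℕ) :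
    orb f z (t + 1) = f t (orb f z t) := rfl

/-- Step (6) of the static proof: an injective map `Θ` on `A`, with Jacobian at least `3 / 4`,
sending `f`-orbits to nearby `f'`-orbits, compares weighted volumes up to the factor `2`. -/
theorem shadow_lintegral {E : Type*} [NormedAddCommGroup E] [NormedSpace ℝ E]
    [FiniteDimensional ℝ E] [MeasurableSpace E] [BorelSpace E]
    (μ : Measure E) [μ.IsAddHaarMeasure] (n : ℕ) (f f' : ℕ → E → E) (R : ℝ)
    (A B : Set E) (hA : MeasurableSet A) (w w' : E → ℝ≥0∞)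
    (hww : ∀ z ∈ A, ∀ z', dist z' z ≤ R → w z ≤ (3 / 2) * w' z')
    (Θ : E → E) (L : E → E →L[ℝ] E) (hinj : InjOn Θ A)
    (hd : ∀ z ∈ A, HasFDerivWithinAt Θ (L z) A z) (hdet : ∀ z ∈ A, 3 / 4 ≤ |(L z).det|)
    (hsh : ∀ z ∈ A, ∀ t, t ≤ n → dist (orb f' (Θ z) t) (orb f z t) ≤ R)
    (hB : ∀ z ∈ A, ∀ z', (∀ t, t ≤ n → dist (orb f' z' t) (orb f z t) ≤ R) → z' ∈ B) :
    ∫⁻ z in A, w z ∂μ ≤ 2 * ∫⁻ z in B, w' z ∂μ := by
  have h1 : Θ '' A ⊆ B := by
    rintro _ ⟨z, hz, rfl⟩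
    exact hB z hz _ (hsh z hz)
  have h2 : ∫⁻ z in Θ '' A, w' z ∂μ ≤ ∫⁻ z in B, w' z ∂μ := lintegral_mono_set h1
  rw [lintegral_image_eq_lintegral_abs_det_fderiv_mul μ hA hd hinj] at h2
  have h3 : ∫⁻ z in A, w z ∂μ ≤ ∫⁻ z in A, 2 * (ENNReal.ofReal |(L z).det| * w' (Θ z)) ∂μ := by
    apply setLIntegral_mono' hA
    intro z hz
    have h4 : w z ≤ (3 / 2) * w' (Θ z) := hww z hz _ (by simpa using hsh z hz 0 (Nat.zero_le _))
    have h5 : (3 / 2 : ℝ≥0∞) ≤ 2 * ENNReal.ofReal |(L z).det| := by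
      have h6 : ENNReal.ofReal (3 / 2) ≤ ENNReal.ofReal (2 * |(L z).det|) :=
        ENNReal.ofReal_le_ofReal (by linarith [hdet z hz])
      rw [ENNReal.ofReal_mul (by norm_num)] at h6
      have h7 : ENNReal.ofReal (3 / 2) = 3 / 2 := by
        rw [ENNReal.ofReal_div_of_pos (by norm_num)]; norm_num
      have h8 : ENNReal.ofReal 2 = 2 := by norm_num
      rwa [h7, h8] at h6
    calc w z ≤ (3 / 2) * w' (Θ z) := h4
      _ ≤ (2 * ENNReal.ofReal |(L z).det|) * w' (Θ z) := by gcongr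
      _ = _ := by ring
  refine h3.trans ?_
  rw [lintegral_const_mul' _ _ (by norm_num)]
  gcongr

end Vale.Agent.P109.H633
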