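import Mathlib

/-! Numerical estimates for the constants of the shadow lemma. -/

namespace Vale.Agent.P109.H633

theorem pow_ratio_ge {a b : ℝ} {N M : ℕ} (ha : 0 ≤ a) (hb : 0 ≤ b) (hMN : M ≤ N)
    (h : (N : ℝ) * (a + b) ≤ 1 / 4) :
    3 / 4 ≤ (1 - a) ^ N / (1 + b) ^ M := by
  rcases Nat.eq_zero_or_pos N with h0 | hN
  · subst h0
    obtain rfl : M = 0 := by omega
    norm_num
  have hN' : (1 : ℝ) ≤ N := by exact_mod_cast hN
  have hMN' : (M : ℝ) ≤ N := by exact_mod_cast hMN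
  have ha1 : a ≤ 1 / 4 := by nlinarith
  have hb1 : b ≤ 1 / 4 := by nlinarith
  have h1 : 1 + (N : ℝ) * (-a) ≤ (1 + (-a)) ^ N := one_add_mul_le_pow (by linarith) N
  have h2 : 1 + (M : ℝ) * (-b) ≤ (1 + (-b)) ^ M := one_add_mul_le_pow (by linarith) M
  have h3 : (1 + b) ^ M * (1 + (-b)) ^ M ≤ 1 := by
    rw [← mul_pow]
    apply pow_le_one₀
    · nlinarith
    · nlinarith
  have hpos : 0 < (1 + b) ^ M := by positivity
  have hpos2 : 0 ≤ (1 + (-b)) ^ M := pow_nonneg (by linarith) _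
  have hNa : (N : ℝ) * a ≤ 1 / 4 := by nlinarith
  have hMb : (M : ℝ) * b ≤ N * b := by nlinarith
  have hMb0 : 0 ≤ (M : ℝ) * b := by positivity
  have hNa0 : 0 ≤ (N : ℝ) * a := by positivity
  rw [le_div_iff₀ hpos]
  have h4 : 3 / 4 ≤ (1 + (N : ℝ) * (-a)) * (1 + (M : ℝ) * (-b)) := by nlinarith
  have h5 : 3 / 4 ≤ (1 - a) ^ N * (1 + (-b)) ^ M := by
    refine h4.trans ?_
    have : (1 - a) = 1 + -a := by ring
    rw [this]
    apply mul_le_mul h1 h2
    · nlinarith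
    · exact pow_nonneg (by linarith) _
  have h6 : (3 / 4 : ℝ) * (1 + b) ^ M ≤ (1 - a) ^ N * ((1 + b) ^ M * (1 + (-b)) ^ M) := by
    have := mul_le_mul_of_nonneg_right h5 hpos.le
    calc _ ≤ _ := this
      _ = _ := by ring
  refine h6.trans ?_
  have h7 : 0 ≤ (1 - a) ^ N := pow_nonneg (by linarith) _
  nlinarith

/-- the constants of the shadow lemma: with `κ = (n+1) K`, `R = 2 κ (n+1) e₀`, `a = κ C₂ R` and
`ζ = e₀ + C₂ R` everything is controlled by one smallness hypothesis -/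
theorem constants {n d : ℕ} {K C e : ℝ} (hK : 1 ≤ K) (hC : 1 ≤ C) (he : 0 ≤ e)
    (hs : 20 * ((d : ℝ) + 1) * ((n : ℝ) + 1) ^ 4 * K ^ 2 * C * e ≤ 1) {R : ℝ}
    (hR : R ≤ 2 * ((n : ℝ) + 1) ^ 2 * K * e) :
    ((((n + 1) * d : ℕ) : ℝ) * ((((n : ℝ) + 1) * K) * C * R + (e + C * R) * (((n : ℝ) + 1) * K))
      ≤ 1 / 4) ∧ (e + C * R) * (((n : ℝ) + 1) * K) ≤ 1 / 4 ∧
      (((n : ℝ) + 1) * K) * C * R ≤ 1 / 8 := by
  have hn : (1 : ℝ) ≤ (n : ℝ) + 1 := by
    have : (0 : ℝ) ≤ n := Nat.cast_nonneg n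
    linarith
  have hd : (0 : ℝ) ≤ d := Nat.cast_nonneg d
  set m : ℝ := (n : ℝ) + 1 with hm
  have hm0 : 0 < m := by linarith
  have hK0 : 0 < K := by linarith
  have hC0 : 0 < C := by linarith
  -- the basic quantity
  set X : ℝ := m ^ 3 * K ^ 2 * C * e with hX
  have hX0 : 0 ≤ X := by positivity
  have hXs : 20 * (d + 1) * m * X ≤ 1 := by
    calc 20 * (d + 1) * m * X = 20 * ((d : ℝ) + 1) * m ^ 4 * K ^ 2 * C * e := by
          rw [hX]; ring
      _ ≤ 1 := hs
  have h1 : m * K * C * R ≤ 2 * X := by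
    calc m * K * C * R ≤ m * K * C * (2 * m ^ 2 * K * e) := by gcongr
      _ = 2 * X := by rw [hX]; ring
  have h2 : e * (m * K) ≤ X := by
    have e1 : m * K * e ≤ m ^ 3 * K ^ 2 * C * e := by
      have e2 : m * K ≤ m ^ 3 * K ^ 2 * C := by
        have e3 : m * K * 1 ≤ m * K * (m ^ 2 * K * C) := by
          apply mul_le_mul_of_nonneg_left _ (by positivity)
          have e4 : 1 ≤ m ^ 2 := by nlinarith
          have e5 : 1 ≤ m ^ 2 * K := by nlinarith
          nlinarith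
        calc m * K = m * K * 1 := by ring
          _ ≤ m * K * (m ^ 2 * K * C) := e3
          _ = _ := by ring
      exact mul_le_mul_of_nonneg_right e2 he
    calc e * (m * K) = m * K * e := by ring
      _ ≤ _ := e1
  have h3 : (e + C * R) * (m * K) ≤ 3 * X := by
    calc (e + C * R) * (m * K) = e * (m * K) + m * K * C * R := by ring
      _ ≤ X + 2 * X := add_le_add h2 h1
      _ = 3 * X := by ring
  have h4 : 20 * X ≤ 1 := by
    have : X ≤ (d + 1) * m * X := by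
      have e1 : (1 : ℝ) ≤ (d + 1) * m := by nlinarith
      nlinarith
    nlinarith
  refine ⟨?_, by linarith, by linarith⟩
  push_cast
  rw [← hm]
  have h5 : m * d * (m * K * C * R + (e + C * R) * (m * K)) ≤ m * d * (5 * X) := by
    apply mul_le_mul_of_nonneg_left _ (by positivity)
    linarith
  refine h5.trans ?_
  have h6 : 20 * (d * m * X) ≤ 20 * (d + 1) * m * X := by
    have : 0 ≤ m * X := by positivity
    nlinarith
  nlinarith

end Vale.Agent.P109.H633
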