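import Vale.Agent.P109.H633.Change
import Vale.Agent.P109.H633.Num
import Vale.Agent.P109.SH.Block

/-! Gluing the determinant estimate and the change of variables of the static shadow lemma. -/

open MeasureTheory Set
open scoped ENNReal InnerProductSpace

namespace Vale.Agent.P109.H633

variable {E : Type*} [NormedAddCommGroup E] [InnerProductSpace ℝ E] [FiniteDimensional ℝ E]

/-- The linear algebra data at one orbit: `L` is the derivative of the shadowing map. -/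
def LinData (n : ℕ) (κ ζ a : ℝ) (L : E →L[ℝ] E) : Prop :=
  ∃ (D D' : ℕ → E →L[ℝ] E)
    (T T' : PiLp 2 (fun _ : Fin (n + 1) => E) →L[ℝ] PiLp 2 (fun _ : Fin n => E))
    (A A' : E →L[ℝ] PiLp 2 (fun _ : Fin (n + 1) => E)) (B : E →L[ℝ] E),
    (∀ x i, T x i = x i.succ - D i (x i.castSucc)) ∧
    (∀ x i, T' x i = x i.succ - D' i (x i.castSucc)) ∧
    (∀ u, T (A u) = 0) ∧ (∀ u, T' (A' u) = 0) ∧ (∀ u, A u 0 = u) ∧ (∀ u, A' u 0 = u) ∧
    (∀ y, ‖y‖ ≤ κ * ‖ContinuousLinearMap.adjoint T y‖) ∧ ‖T' - T‖ ≤ ζ ∧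
    (∀ u v, |⟪v, B u⟫_ℝ| ≤ a * (‖A v‖ * ‖A u‖)) ∧
    ((ContinuousLinearMap.adjoint A).comp A').comp L =
      (ContinuousLinearMap.adjoint A).comp A - B

theorem LinData.det_ge {n : ℕ} {κ ζ a : ℝ} {L : E →L[ℝ] E} (h : LinData n κ ζ a L)
    (ha : 0 ≤ a) (hζ : 0 ≤ ζ) (hκ : 0 ≤ κ) (ha1 : a < 1) (hb1 : ζ * κ < 1)
    (hs : (((n + 1) * Module.finrank ℝ E : ℕ) : ℝ) * (a + ζ * κ) ≤ 1 / 4) :
    3 / 4 ≤ |L.det| := by
  obtain ⟨D, D', T, T', A, A', B, hT, hT', hTA, hTA', hA0, hA0', hκ', hζ', hB, hL⟩ := h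
  have h1 := (SH.block_det n D D' T T' hT hT' A A' hTA hTA' hA0 hA0' hκ' hζ'
    (mul_nonneg hζ hκ) le_rfl hb1 B ha ha1 hB).2 L hL
  refine le_trans ?_ h1.1
  apply pow_ratio_ge ha (mul_nonneg hζ hκ) _ hs
  exact Nat.mul_le_mul_right _ (Nat.le_succ n)

end Vale.Agent.P109.H633
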