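import Vale.Agent.P109.H633.Change
import Vale.Agent.P109.H633.Num
import Vale.Agent.P109.SH.Top
import Vale.Agent.P109.ST288.Theta

/-! The shadow lemma, final form (blueprint 3.3, static proof). -/

open MeasureTheory Set Metric
open scoped ENNReal InnerProductSpace

namespace Vale.Agent.P109.H633

variable {E : Type*} [NormedAddCommGroup E] [InnerProductSpace ℝ E] [FiniteDimensional ℝ E]

omit [FiniteDimensional ℝ E] in
theorem norm_fderiv_fderiv_le_of_iterated {g : E → E} {x : E} {C : ℝ}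
    (h : ‖iteratedFDeriv ℝ 2 g x‖ ≤ C) : ‖fderiv ℝ (fderiv ℝ g) x‖ ≤ C := by
  have h1 : ‖iteratedFDeriv ℝ 1 (fderiv ℝ g) x‖ = ‖iteratedFDeriv ℝ (1 + 1) g x‖ :=
    norm_iteratedFDeriv_fderiv
  rw [norm_iteratedFDeriv_one] at h1
  rw [h1]
  exact h

/-- The shadowing map with determinant bound. -/
theorem exists_theta_det {n : ℕ} {K C₂ e₀ m : ℝ} (hK : 1 ≤ K) (hC : 1 ≤ C₂) (he : 0 ≤ e₀)
    (hsmall : 20 * ((Module.finrank ℝ E : ℝ) + 1) * ((n : ℝ) + 1) ^ 4 * K ^ 2 * C₂ * e₀ ≤ 1)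
    (hm : 2 * ((n : ℝ) + 1) ^ 2 * K * e₀ < m) (f f' : ℕ → E → E) (G : Set E)
    (hG : ∀ z ∈ G, ST288.Hyp n f f' z e₀ C₂ m)
    (hgood : ∀ z ∈ G, S3.Good n (fun t => fderiv ℝ (f t) (orb f z t)) K) :
    ∃ (Θ : E → E) (L : E → E →L[ℝ] E), InjOn Θ G ∧
      (∀ z ∈ G, HasFDerivWithinAt Θ (L z) G z) ∧ (∀ z ∈ G, 3 / 4 ≤ |(L z).det|) ∧
      ∀ z ∈ G, ∀ t, t ≤ n →
        dist (orb f' (Θ z) t) (orb f z t) ≤ 2 * ((n : ℝ) + 1) ^ 2 * K * e₀ := by
  classical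
  set d := Module.finrank ℝ E with hd
  set N : ℝ := (n : ℝ) + 1 with hN
  have hN1 : 1 ≤ N := by
    have : (0 : ℝ) ≤ n := Nat.cast_nonneg n
    rw [hN]; linarith
  have hn0 : (0 : ℝ) ≤ n := Nat.cast_nonneg n
  have hd0 : (0 : ℝ) ≤ d := Nat.cast_nonneg d
  have hK0 : 0 < K := by linarith
  have hC0 : 0 < C₂ := by linarith
  have hN0 : 0 < N := by linarith
  set κ : ℝ := N * K with hκdef
  have hκ0 : 0 < κ := by positivity
  set ρ : ℝ := N ^ 2 * K * e₀ with hρdef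
  have hρ0 : 0 ≤ ρ := by positivity
  set δ : ℝ := 1 / (20 * N ^ 2 * K * C₂) with hδdef
  have hδ0 : 0 < δ := by positivity
  set r : ℝ := min m (2 * ρ + δ) with hrdef
  have hmρ : 2 * ρ < m := by
    calc 2 * ρ = 2 * N ^ 2 * K * e₀ := by rw [hρdef]; ring
      _ < m := hm
  have hm0 : 0 < m := by linarith
  have hr0 : 0 < r := lt_min hm0 (by positivity)
  have hρr : 2 * ρ ≤ r := le_min hmρ.le (by linarith)
  have hrm : r ≤ m := min_le_left _ _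
  have hrle : r ≤ 2 * ρ + δ := min_le_right _ _
  -- basic smallness
  have hX : N ^ 4 * K ^ 2 * C₂ * e₀ ≤ 1 / 20 := by
    have h0 : 0 ≤ N ^ 4 * K ^ 2 * C₂ * e₀ := by positivity
    have h1 : 20 * (N ^ 4 * K ^ 2 * C₂ * e₀) ≤
        20 * ((d : ℝ) + 1) * N ^ 4 * K ^ 2 * C₂ * e₀ := by
      have : 20 * ((d : ℝ) + 1) * N ^ 4 * K ^ 2 * C₂ * e₀ =
          20 * (N ^ 4 * K ^ 2 * C₂ * e₀) + 20 * d * (N ^ 4 * K ^ 2 * C₂ * e₀) := by ring
      rw [this]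
      have : 0 ≤ 20 * d * (N ^ 4 * K ^ 2 * C₂ * e₀) := by positivity
      linarith
    linarith
  have hA1 : N ^ 2 * K * e₀ ≤ 1 / 20 := by
    refine le_trans ?_ hX
    have e1 : N ^ 2 * K * e₀ * 1 ≤ N ^ 2 * K * e₀ * (N ^ 2 * K * C₂) := by
      apply mul_le_mul_of_nonneg_left _ (by positivity)
      have e4 : 1 ≤ N ^ 2 := by nlinarith
      have e5 : 1 ≤ N ^ 2 * K := by nlinarith
      nlinarith
    calc N ^ 2 * K * e₀ = N ^ 2 * K * e₀ * 1 := by ring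
      _ ≤ _ := e1
      _ = _ := by ring
  have hA2 : N ^ 2 * K * C₂ * (2 * ρ) ≤ 1 / 10 := by
    calc N ^ 2 * K * C₂ * (2 * ρ) = 2 * (N ^ 4 * K ^ 2 * C₂ * e₀) := by rw [hρdef]; ring
      _ ≤ 2 * (1 / 20) := by linarith
      _ = 1 / 10 := by norm_num
  have hA3 : N ^ 2 * K * C₂ * δ = 1 / 20 := by
    rw [hδdef]; field_simp
  have hA4 : N ^ 2 * K * C₂ * r ≤ 3 / 20 := by
    calc N ^ 2 * K * C₂ * r ≤ N ^ 2 * K * C₂ * (2 * ρ + δ) := by gcongr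
      _ = N ^ 2 * K * C₂ * (2 * ρ) + N ^ 2 * K * C₂ * δ := by ring
      _ ≤ 3 / 20 := by rw [hA3]; linarith
  have hA5 : N * (κ * (e₀ + C₂ * r)) ≤ 1 / 5 := by
    calc N * (κ * (e₀ + C₂ * r)) = N ^ 2 * K * e₀ + N ^ 2 * K * C₂ * r := by rw [hκdef]; ring
      _ ≤ 1 / 20 + 3 / 20 := add_le_add hA1 hA4
      _ = 1 / 5 := by norm_num
  have hB0 : 0 ≤ κ * (e₀ + C₂ * r) := by positivity
  have hκζ : κ * (e₀ + C₂ * r) ≤ 1 / 2 := by nlinarith
  have hδ' : κ * (n * e₀) + κ * (e₀ + C₂ * r) * ρ ≤ ρ := by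
    have e1 : κ * (e₀ + C₂ * r) * ρ = (N * (κ * (e₀ + C₂ * r))) * (κ * e₀) := by
      rw [hρdef, hκdef]; ring
    have e2 : (N * (κ * (e₀ + C₂ * r))) * (κ * e₀) ≤ 1 * (κ * e₀) := by
      apply mul_le_mul_of_nonneg_right _ (by positivity)
      linarith
    have e3 : ρ = κ * (n * e₀) + κ * e₀ := by
      rw [hρdef, hκdef, hN]; ring
    rw [e1]
    linarith
  have hs : 2 * κ * C₂ * ρ < 1 := by
    have e1 : 2 * κ * C₂ * ρ * N = 2 * (N ^ 4 * K ^ 2 * C₂ * e₀) := by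
      rw [hρdef, hκdef]; ring
    have e2 : 2 * κ * C₂ * ρ * 1 ≤ 2 * κ * C₂ * ρ * N := by
      apply mul_le_mul_of_nonneg_left hN1 (by positivity)
    linarith
  -- hypotheses on the smaller ball
  have hG' : ∀ z ∈ G, ST288.Hyp n f f' z e₀ C₂ r := by
    intro z hz
    have hsub : ∀ t, closedBall (orb f z t) r ⊆ closedBall (orb f z t) m :=
      fun t => closedBall_subset_closedBall hrm
    have h := hG z hz
    exact ⟨fun t ht x hx => h.df t ht x (hsub t hx), fun t ht x hx => h.df' t ht x (hsub t hx),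
      fun t ht x hx => h.h0 t ht x (hsub t hx), fun t ht x hx => h.h1 t ht x (hsub t hx),
      fun t ht x hx => h.h2 t ht x (hsub t hx)⟩
  let D : E → ℕ → E →L[ℝ] E := fun z t => fderiv ℝ (f t) (orb f z t)
  let T : E → PiLp 2 (fun _ : Fin (n + 1) => E) →ₗ[ℝ] PiLp 2 (fun _ : Fin n => E) :=
    fun z => (SH.Top n (D z) : PiLp 2 (fun _ : Fin (n + 1) => E) →L[ℝ] PiLp 2 (fun _ : Fin n => E))
  have hTκ : ∀ z ∈ G, ∀ y, ‖y‖ ≤ κ * ‖LinearMap.adjoint (T z) y‖ := by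
    intro z hz y
    have h1 := SH.Top_kappa (hgood z hz) y
    exact h1
  obtain ⟨Θ, hinj, hdist, hder⟩ := ST288.exists_theta (G := G) (f := f) (f' := f') hG' T
    (fun z hz x i => rfl) hκ0.le hTκ he hC0.le hr0 hρ0 hρr hκζ hδ' hs
  choose! L B hL using hder
  refine ⟨Θ, L, hinj, fun z hz => (hL z hz).1, fun z hz => ?_, fun z hz t ht => ?_⟩
  · obtain ⟨-, hLeq, hB⟩ := hL z hz
    obtain ⟨c1, c2, c3⟩ := constants (n := n) (d := d) hK hC he hsmall (R := ρ) (by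
      rw [hρdef]
      have : 0 ≤ N ^ 2 * K * e₀ := by positivity
      calc N ^ 2 * K * e₀ ≤ 2 * (N ^ 2 * K * e₀) := by linarith
        _ = 2 * ((n : ℝ) + 1) ^ 2 * K * e₀ := by rw [hN]; ring)
    -- the operators along the shadowing orbit
    let D' : ℕ → E →L[ℝ] E := fun t => fderiv ℝ (f' t) (orb f' (Θ z) t)
    have hζ : ‖SH.Top n D' - SH.Top n (D z)‖ ≤ e₀ + C₂ * ρ := by
      apply SH.norm_Top_sub_le (by positivity)
      intro t ht
      have hmem : orb f' (Θ z) t ∈ closedBall (orb f z t) r := by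
        rw [mem_closedBall]
        exact (hdist z hz t ht.le).trans (by linarith)
      have h1 := (hG' z hz).h1 t ht _ hmem
      have h2 := (hG' z hz).lip ht (mem_closedBall_self hr0.le) hmem
      have h3 : ‖orb f' (Θ z) t - orb f z t‖ ≤ ρ := by
        rw [← dist_eq_norm]; exact hdist z hz t ht.le
      calc ‖D' t - D z t‖ = ‖(fderiv ℝ (f' t) (orb f' (Θ z) t) - fderiv ℝ (f t) (orb f' (Θ z) t))
            + (fderiv ℝ (f t) (orb f' (Θ z) t) - fderiv ℝ (f t) (orb f z t))‖ := by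
              congr 1; simp [D', D]
        _ ≤ _ := norm_add_le _ _
        _ ≤ e₀ + C₂ * ρ := by
            refine add_le_add h1 (h2.trans ?_)
            gcongr
    have hT1 : ∀ u, SH.Top n (D z) (ST288.Aop n f z u) = 0 := fun u =>
      ST288.T_Aop (T z) (fun x i => rfl) u
    have hT2 : ∀ u, SH.Top n D' (ST288.Aop n f' (Θ z) u) = 0 := fun u =>
      ST288.T_Aop (T := ((SH.Top n D' : PiLp 2 (fun _ : Fin (n + 1) => E) →L[ℝ]
        PiLp 2 (fun _ : Fin n => E)) : PiLp 2 (fun _ : Fin (n + 1) => E) →ₗ[ℝ]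
        PiLp 2 (fun _ : Fin n => E))) (fun x i => rfl) u
    have ha : 0 ≤ κ * C₂ * ρ := by positivity
    have hdet := (SH.Top_det n (D z) D' (ST288.Aop n f z) (ST288.Aop n f' (Θ z)) hT1 hT2
      (fun u => by rw [ST288.Aop_apply]; rfl) (fun u => by rw [ST288.Aop_apply]; rfl)
      (SH.Top_kappa (hgood z hz)) hζ (b := (e₀ + C₂ * ρ) * κ) (by positivity) le_rfl
      (by rw [hκdef]; linarith) (B z) ha (by rw [hκdef]; linarith) hB).2 (L z) hLeq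
    refine le_trans ?_ hdet.1
    apply pow_ratio_ge ha (by positivity) (Nat.mul_le_mul_right _ (Nat.le_succ n))
    rw [← hN] at c1
    exact c1
  · refine (hdist z hz t ht).trans ?_
    rw [hρdef]
    have : 0 ≤ N ^ 2 * K * e₀ := by positivity
    calc N ^ 2 * K * e₀ ≤ 2 * (N ^ 2 * K * e₀) := by linarith
      _ = 2 * ((n : ℝ) + 1) ^ 2 * K * e₀ := by rw [hN]; ring

/-- **The shadow lemma.**  If the derivative cocycle of the `f`-orbits of the points of `A` has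
Green operators of norm at most `K` and `f'` is `e₀`-close to `f` in `C¹` along them, then the
weighted volume of `A` is at most twice the weighted volume of the set `B` of points with nearby
`f'`-orbit. -/
theorem shadow [MeasurableSpace E] [BorelSpace E] (μ : Measure E) [μ.IsAddHaarMeasure]
    {n : ℕ} {K C₂ e₀ m : ℝ} (hK : 1 ≤ K) (hC : 1 ≤ C₂) (he : 0 ≤ e₀)
    (hsmall : 20 * ((Module.finrank ℝ E : ℝ) + 1) * ((n : ℝ) + 1) ^ 4 * K ^ 2 * C₂ * e₀ ≤ 1)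
    (hm : 2 * ((n : ℝ) + 1) ^ 2 * K * e₀ < m)
    (Ω : ℕ → Set E) (hΩ : ∀ t < n, IsOpen (Ω t)) (f f' : ℕ → E → E)
    (hf : ∀ t < n, ContDiffOn ℝ 2 (f t) (Ω t)) (hf' : ∀ t < n, ContDiffOn ℝ 2 (f' t) (Ω t))
    (hf2 : ∀ t < n, ∀ x ∈ Ω t, ‖iteratedFDeriv ℝ 2 (f t) x‖ ≤ C₂)
    (h0 : ∀ t < n, ∀ x ∈ Ω t, ‖f' t x - f t x‖ ≤ e₀)
    (h1 : ∀ t < n, ∀ x ∈ Ω t, ‖fderiv ℝ (f' t) x - fderiv ℝ (f t) x‖ ≤ e₀)
    (A B : Set E) (hA : MeasurableSet A)
    (hball : ∀ z ∈ A, ∀ t < n, Metric.closedBall (orb f z t) m ⊆ Ω t)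
    (hgood : ∀ z ∈ A, S3.Good n (fun t => fderiv ℝ (f t) (orb f z t)) K)
    (w w' : E → ℝ≥0∞)
    (hw : ∀ z ∈ A, ∀ z', dist z' z ≤ 2 * ((n : ℝ) + 1) ^ 2 * K * e₀ → w z ≤ (3 / 2) * w' z')
    (hB : ∀ z ∈ A, ∀ z', (∀ t ≤ n,
      dist (orb f' z' t) (orb f z t) ≤ 2 * ((n : ℝ) + 1) ^ 2 * K * e₀) → z' ∈ B) :
    ∫⁻ z in A, w z ∂μ ≤ 2 * ∫⁻ z in B, w' z ∂μ := by
  have hyp : ∀ z ∈ A, ST288.Hyp n f f' z e₀ C₂ m := by
    intro z hz
    refine ⟨fun t ht x hx => ?_, fun t ht x hx => ?_, fun t ht x hx => ?_, fun t ht x hx => ?_,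
      fun t ht x hx => ?_⟩
    · exact (hf t ht).contDiffAt ((hΩ t ht).mem_nhds (hball z hz t ht hx))
    · exact ((hf' t ht).contDiffAt ((hΩ t ht).mem_nhds (hball z hz t ht hx))).of_le (by norm_num)
    · exact h0 t ht x (hball z hz t ht hx)
    · exact h1 t ht x (hball z hz t ht hx)
    · exact norm_fderiv_fderiv_le_of_iterated (hf2 t ht x (hball z hz t ht hx))
  obtain ⟨Θ, L, hinj, hd, hdet, hdist⟩ :=
    exists_theta_det hK hC he hsmall hm f f' A hyp hgood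
  exact shadow_lintegral μ n f f' _ A B hA w w' hw Θ L hinj hd hdet hdist
    (fun z hz z' h => hB z hz z' h)

end Vale.Agent.P109.H633
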