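import Mathlib

/-! First order expansion of the determinant at the identity. -/

namespace Vale.Agent.P109.H633

open Set

section
variable {E : Type*} [NormedAddCommGroup E] [InnerProductSpace ℝ E] [FiniteDimensional ℝ E]

theorem contDiff_det : ContDiff ℝ 1 (fun A : E →L[ℝ] E => A.det) := by
  classical
  let b := Module.finBasis ℝ E
  have h1 : ∀ A : E →L[ℝ] E, A.det = Matrix.det (LinearMap.toMatrix b b (A : E →ₗ[ℝ] E)) := by
    intro A
    rw [LinearMap.det_toMatrix]
  simp_rw [h1, Matrix.det_apply]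
  apply ContDiff.sum
  intro σ _
  apply ContDiff.const_smul
  apply contDiff_prod
  intro i _
  let L : (E →L[ℝ] E) →ₗ[ℝ] ℝ :=
    { toFun := fun A => LinearMap.toMatrix b b (A : E →ₗ[ℝ] E) (σ i) i
      map_add' := by intro A B; simp
      map_smul' := by intro c A; simp }
  have : (fun A : E →L[ℝ] E => LinearMap.toMatrix b b (A : E →ₗ[ℝ] E) (σ i) i) =
      (LinearMap.toContinuousLinearMap L) := by
    ext A; rfl
  rw [this]
  exact ContinuousLinearMap.contDiff _

theorem deriv_det_line (A : E →L[ℝ] E) :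
    HasDerivAt (fun r : ℝ => (1 + r • A).det) (LinearMap.trace ℝ E (A : E →ₗ[ℝ] E)) 0 := by
  classical
  let b := Module.finBasis ℝ E
  set M := LinearMap.toMatrix b b (A : E →ₗ[ℝ] E) with hM
  have h1 : ∀ r : ℝ, (1 + r • A).det = Matrix.det (1 + r • M) := by
    intro r
    have : (1 + r • A).det = Matrix.det (LinearMap.toMatrix b b ((1 + r • A : E →L[ℝ] E) : E →ₗ[ℝ] E)) := by
      rw [LinearMap.det_toMatrix]
    rw [this]
    congr 1
    have h2 : ((1 + r • A : E →L[ℝ] E) : E →ₗ[ℝ] E) = LinearMap.id + r • (A : E →ₗ[ℝ] E) := by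
      ext x; simp
    rw [h2, map_add, map_smul, LinearMap.toMatrix_id]
  have htr : LinearMap.trace ℝ E (A : E →ₗ[ℝ] E) = M.trace := by
    rw [LinearMap.trace_eq_matrix_trace ℝ b]
  rw [htr]
  have h1' : (fun r : ℝ => (1 + r • A).det) = fun r : ℝ => 1 + M.trace * r +
      (Matrix.det (1 + (Polynomial.X : Polynomial ℝ) • M.map Polynomial.C)).divX.divX.eval r * r ^ 2 := by
    funext r
    rw [h1 r]
    exact Matrix.det_one_add_smul r M
  rw [h1']
  set P := (Matrix.det (1 + (Polynomial.X : Polynomial ℝ) • M.map Polynomial.C)).divX.divX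
  have h3 : HasDerivAt (fun r : ℝ => P.eval r) (P.derivative.eval 0) 0 := P.hasDerivAt 0
  have h4 : HasDerivAt (fun r : ℝ => r ^ 2) 0 0 := by
    simpa using (hasDerivAt_pow 2 (0 : ℝ))
  have h5 := (h3.mul h4)
  have h6 : HasDerivAt (fun r : ℝ => 1 + M.trace * r) (M.trace) 0 := by
    simpa using ((hasDerivAt_id (0 : ℝ)).const_mul M.trace).const_add 1
  have h7 : HasDerivAt (fun r : ℝ => 1 + M.trace * r + P.eval r * r ^ 2)
      (M.trace + (P.derivative.eval 0 * (0 : ℝ) ^ 2 + P.eval 0 * 0)) 0 := h6.add h5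
  convert h7 using 1
  ring

theorem det_one_add (ε : ℝ) (hε : 0 < ε) : ∃ δ : ℝ, 0 < δ ∧ ∀ A : E →L[ℝ] E, ‖A‖ ≤ δ →
    |(1 + A).det - 1 - LinearMap.trace ℝ E (A : E →ₗ[ℝ] E)| ≤ ε * ‖A‖ := by
  have hd : DifferentiableAt ℝ (fun A : E →L[ℝ] E => A.det) 1 :=
    contDiff_det.differentiable (by norm_num) 1
  have hf := hd.hasFDerivAt
  have key : ∀ A : E →L[ℝ] E, fderiv ℝ (fun A : E →L[ℝ] E => A.det) 1 A =
      LinearMap.trace ℝ E (A : E →ₗ[ℝ] E) := by
    intro A
    have h1 : HasDerivAt (fun r : ℝ => (1 : E →L[ℝ] E) + r • A) A 0 := by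
      simpa using ((hasDerivAt_id (0 : ℝ)).smul_const A).const_add (1 : E →L[ℝ] E)
    have h2 : HasFDerivAt (fun A : E →L[ℝ] E => A.det) (fderiv ℝ (fun A : E →L[ℝ] E => A.det) 1)
        ((fun r : ℝ => (1 : E →L[ℝ] E) + r • A) 0) := by simpa using hf
    have h3 := h2.comp_hasDerivAt (0 : ℝ) h1
    exact h3.unique (deriv_det_line A)
  have ho := hf.isLittleO
  rw [Asymptotics.isLittleO_iff] at ho
  have h1 := ho hε
  rw [Metric.eventually_nhds_iff] at h1
  obtain ⟨δ, hδ, h⟩ := h1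
  refine ⟨δ / 2, by positivity, fun A hA => ?_⟩
  have h2 := @h (1 + A) (by rw [dist_eq_norm]; simp; linarith)
  rw [key] at h2
  have h3 : (1 + A - 1 : E →L[ℝ] E) = A := by abel
  simp only [h3] at h2
  rw [Real.norm_eq_abs] at h2
  convert h2 using 2
  have : (1 : E →L[ℝ] E).det = 1 := by
    simp [ContinuousLinearMap.det]
  rw [this]

end

end Vale.Agent.P109.H633
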