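import Mathlib
import Vale.Agent.P109.H633.Det

/-! Euler composition: a family of vector fields whose flow follows orbits and almost preserves
volume yields an injective map. -/

namespace Vale.Agent.P109.H633

open Set MeasureTheory Metric

section lip
variable {F G : Type*} [NormedAddCommGroup F] [NormedSpace ℝ F] [FiniteDimensional ℝ F]
  [NormedAddCommGroup G] [NormedSpace ℝ G]

theorem bdd_fderiv {g : F → G} (hg : ContDiff ℝ 1 g) (ρ : ℝ) :
    ∃ Λ : ℝ, 0 ≤ Λ ∧ ∀ p ∈ closedBall (0 : F) ρ, ‖fderiv ℝ g p‖ ≤ Λ := by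
  have hc : IsCompact (closedBall (0 : F) ρ) := by
    haveI : ProperSpace F := FiniteDimensional.proper ℝ F
    exact isCompact_closedBall 0 ρ
  have hcont : Continuous (fun p => ‖fderiv ℝ g p‖) :=
    (hg.continuous_fderiv (by norm_num)).norm
  obtain ⟨Λ, hΛ⟩ := hc.exists_bound_of_continuousOn (f := fun p => ‖fderiv ℝ g p‖)
    hcont.continuousOn
  refine ⟨max Λ 0, le_max_right _ _, fun p hp => ?_⟩
  have := hΛ p hp
  rw [norm_norm] at this
  exact this.trans (le_max_left _ _)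

theorem lip_ball {g : F → G} (hg : ContDiff ℝ 1 g) (ρ : ℝ) :
    ∃ Λ : ℝ, 0 ≤ Λ ∧ (∀ p ∈ closedBall (0 : F) ρ, ‖fderiv ℝ g p‖ ≤ Λ) ∧
      ∀ p ∈ closedBall (0 : F) ρ, ∀ q ∈ closedBall (0 : F) ρ, ‖g q - g p‖ ≤ Λ * ‖q - p‖ := by
  obtain ⟨Λ, h0, hΛ⟩ := bdd_fderiv hg ρ
  refine ⟨Λ, h0, hΛ, fun p hp q hq => ?_⟩
  exact Convex.norm_image_sub_le_of_norm_fderiv_le (𝕜 := ℝ)
    (fun x _ => hg.differentiable (by norm_num) x) hΛ (convex_closedBall 0 ρ) hp hq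

theorem taylor_ball {g : F → G} (hg : ContDiff ℝ 2 g) (ρ : ℝ) :
    ∃ Λ : ℝ, 0 ≤ Λ ∧ ∀ p ∈ closedBall (0 : F) ρ, ∀ q ∈ closedBall (0 : F) ρ,
      ‖g q - g p - fderiv ℝ g p (q - p)‖ ≤ Λ * ‖q - p‖ ^ 2 := by
  have h1 : ContDiff ℝ 1 (fderiv ℝ g) := hg.fderiv_right (by norm_num)
  obtain ⟨Λ, h0, -, hΛ⟩ := lip_ball h1 ρ
  refine ⟨Λ, h0, fun p hp q hq => ?_⟩
  have hseg : segment ℝ p q ⊆ closedBall (0 : F) ρ :=
    (convex_closedBall (0 : F) ρ).segment_subset hp hq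
  have h2 : ∀ x ∈ segment ℝ p q, ‖fderiv ℝ g x - fderiv ℝ g p‖ ≤ Λ * ‖q - p‖ := by
    intro x hx
    refine (hΛ p hp x (hseg hx)).trans ?_
    apply mul_le_mul_of_nonneg_left _ h0
    obtain ⟨a, b, ha, hb, hab, rfl⟩ := hx
    have : a • p + b • q - p = b • (q - p) := by
      have : a = 1 - b := by linarith
      subst this
      rw [sub_smul, one_smul, smul_sub]; abel
    rw [this, norm_smul, Real.norm_of_nonneg hb]
    have hb1 : b ≤ 1 := by linarith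
    nlinarith [norm_nonneg (q - p)]
  have h3 := Convex.norm_image_sub_le_of_norm_fderiv_le' (𝕜 := ℝ) (φ := fderiv ℝ g p)
    (fun x _ => hg.differentiable (by norm_num) x) h2 (convex_segment p q)
    (left_mem_segment ℝ p q) (right_mem_segment ℝ p q)
  calc _ ≤ Λ * ‖q - p‖ * ‖q - p‖ := h3
    _ = _ := by ring

end lip

end Vale.Agent.P109.H633
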